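import Vale.Agent.P028.MathlibUsed
import Vale.Agent.P028.H734.LeakP
attribute [-instance] ProperSMul.toContinuousSMul IsTopologicalTorsor.toContinuousSMul IdemSemiring.toCanonicallyOrderedAdd IdemSemiring.toMulLeftMono IdemSemiring.toMulRightMono AddQuantale.instAddLeftMono AddQuantale.instAddRightMono Quantale.instMulLeftMono Quantale.instMulRightMono FiniteDimensional.rclike_to_real IsScalarTower.complexToReal FiniteDimensional.complexToReal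

/-!
# The form of two families with leaks, both orders of newness
-/

namespace Vale.P028.Dp

open Finset Db

variable {α β β' τ : Type*}

section

variable {X : Finset α} {rel : ℕ → α → α → Prop} {W : ℕ → α → ℝ} {P : α → ℝ} {pc : ℕ → α → ℝ}

/-- the kernel is symmetric -/
theorem ker_symm (HN : Nst X rel W P pc) {i : ℕ} {y z : α} (hy : y ∈ X) (hz : z ∈ X)
    (h : rel i y z) : P y * W i z = P z * W i y := by
  rw [HN.P_eq i y hy, HN.P_eq i z hz, HN.pc_eq i y hy z hz h]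
  ring

variable {S₁ : Finset β} {S₂ : Finset β'} {T : Finset τ} {c₁ : β → ℕ} {c₂ : β' → ℕ}
  {pr₁ : β → ℝ} {pr₂ : β' → ℝ} {im₁ : β → τ → α} {im₂ : β' → τ → α}
  {L₁ : ℕ → β → τ → ℝ} {L₂ : ℕ → β' → τ → ℝ} {μ₁ : β → τ → ℝ} {μ₂ : β' → τ → ℝ}
  {p q κm κ K0 : ℝ} {ξ₁ : β → ℝ} {ξ₂ : β' → ℝ}

theorem LkP.mem_X (H : LkP X rel P S₁ T c₁ pr₁ im₁ L₁ μ₁ p κm κ K0) {i : ℕ} {e : β} (he : e ∈ S₁)
    (hi : c₁ e ≤ i) {t : τ} (ht : t ∈ T) (hL : L₁ i e t ≠ 0) : im₁ e t ∈ X := by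
  refine H.mem e he t ht fun h0 => hL ?_
  exact le_antisymm (h0 ▸ H.mono e he i hi t ht) (H.L_nonneg i e he t ht)

open Classical in
/-- the kernel between two points -/
noncomputable def ker (rel : ℕ → α → α → Prop) (W : ℕ → α → ℝ) (P : α → ℝ) (i : ℕ) (y z : α) : ℝ :=
  if rel i y z then P y * W i z else 0

/-- the part of index `i` of the form, in terms of the words -/
theorem form_words (H₁ : LkP X rel P S₁ T c₁ pr₁ im₁ L₁ μ₁ p κm κ K0)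
    (H₂ : LkP X rel P S₂ T c₂ pr₂ im₂ L₂ μ₂ q κm κ K0) (i : ℕ)
    [DecidableRel (rel i)] [DecidablePred (fun e => c₁ e = i)]
    [DecidablePred (fun e => c₂ e ≤ i)] :
    ∑ y ∈ X, ∑ z ∈ X.filter (fun z => rel i y z),
      P y * W i z * (vP S₂ T c₂ im₂ L₂ ξ₂ i y * uP S₁ T c₁ im₁ L₁ ξ₁ i z) =
    ∑ e ∈ S₁.filter (fun e => c₁ e = i), ∑ e' ∈ S₂.filter (fun e => c₂ e ≤ i),
      ∑ t ∈ T, ∑ t' ∈ T, ξ₁ e * L₁ i e t * (ξ₂ e' * L₂ i e' t') *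
        ker rel W P i (im₂ e' t') (im₁ e t) := by
  classical
  set E1 := (S₁.filter (fun e => c₁ e = i)) ×ˢ T with hE1
  set E2 := (S₂.filter (fun e => c₂ e ≤ i)) ×ˢ T with hE2
  have hm1 : ∀ e ∈ E1, ξ₁ e.1 * L₁ i e.1 e.2 ≠ 0 → im₁ e.1 e.2 ∈ X := by
    intro e he hne
    have h1 := mem_product.1 he
    have h2 := mem_filter.1 h1.1
    exact H₁.mem_X h2.1 h2.2.le h1.2 (right_ne_zero_of_mul hne)
  have hm2 : ∀ e ∈ E2, ξ₂ e.1 * L₂ i e.1 e.2 ≠ 0 → im₂ e.1 e.2 ∈ X := by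
    intro e he hne
    have h1 := mem_product.1 he
    have h2 := mem_filter.1 h1.1
    exact H₂.mem_X h2.1 h2.2 h1.2 (right_ne_zero_of_mul hne)
  have hu : ∀ z, uP S₁ T c₁ im₁ L₁ ξ₁ i z =
      ∑ e ∈ E1.filter (fun e => im₁ e.1 e.2 = z), ξ₁ e.1 * L₁ i e.1 e.2 := by
    intro z
    unfold uP
    rw [hE1]
    congr!
  have hv : ∀ z, vP S₂ T c₂ im₂ L₂ ξ₂ i z =
      ∑ e ∈ E2.filter (fun e => im₂ e.1 e.2 = z), ξ₂ e.1 * L₂ i e.1 e.2 := by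
    intro z
    unfold vP
    rw [hE2]
    congr!
  have e1 : ∀ y ∈ X, ∑ z ∈ X.filter (fun z => rel i y z),
      P y * W i z * (vP S₂ T c₂ im₂ L₂ ξ₂ i y * uP S₁ T c₁ im₁ L₁ ξ₁ i z) =
      vP S₂ T c₂ im₂ L₂ ξ₂ i y * ∑ e ∈ E1, ξ₁ e.1 * L₁ i e.1 e.2 *
        ker rel W P i y (im₁ e.1 e.2) := by
    intro y _
    rw [← sum_im (X := X) (im := im₁) (E := E1) (a := fun e => ξ₁ e.1 * L₁ i e.1 e.2)
      (G := fun z => ker rel W P i y z) hm1, mul_sum, sum_filter]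
    refine sum_congr rfl fun z _ => ?_
    rw [hu z]
    unfold ker
    split_ifs
    · ring
    · ring
  rw [sum_congr rfl e1]
  have e2 : ∑ y ∈ X, vP S₂ T c₂ im₂ L₂ ξ₂ i y * ∑ e ∈ E1, ξ₁ e.1 * L₁ i e.1 e.2 *
        ker rel W P i y (im₁ e.1 e.2) =
      ∑ e ∈ E1, ξ₁ e.1 * L₁ i e.1 e.2 * ∑ e' ∈ E2, ξ₂ e'.1 * L₂ i e'.1 e'.2 *
        ker rel W P i (im₂ e'.1 e'.2) (im₁ e.1 e.2) := by
    have e3 : ∀ y ∈ X, vP S₂ T c₂ im₂ L₂ ξ₂ i y * ∑ e ∈ E1, ξ₁ e.1 * L₁ i e.1 e.2 *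
        ker rel W P i y (im₁ e.1 e.2) =
        ∑ e ∈ E1, ξ₁ e.1 * L₁ i e.1 e.2 * (vP S₂ T c₂ im₂ L₂ ξ₂ i y *
          ker rel W P i y (im₁ e.1 e.2)) := by
      intro y _
      rw [mul_sum]
      exact sum_congr rfl fun e _ => by ring
    rw [sum_congr rfl e3, sum_comm]
    refine sum_congr rfl fun e _ => ?_
    rw [← mul_sum]
    congr 1
    rw [← sum_im (X := X) (im := im₂) (E := E2) (a := fun e => ξ₂ e.1 * L₂ i e.1 e.2)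
      (G := fun y => ker rel W P i y (im₁ e.1 e.2)) hm2]
    exact sum_congr rfl fun y _ => by rw [hv y]
  rw [e2, hE1, sum_product]
  refine sum_congr rfl fun e _ => ?_
  rw [sum_comm]
  refine sum_congr rfl fun t _ => ?_
  rw [hE2, sum_product, mul_sum]
  refine sum_congr rfl fun e' _ => ?_
  rw [mul_sum]
  exact sum_congr rfl fun t' _ => by ring

/-- **One order of newness**: the elements of `S₁` are new, exponent `p`. -/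
theorem form1 (HN : Nst X rel W P pc) (H₁ : LkP X rel P S₁ T c₁ pr₁ im₁ L₁ μ₁ p κm κ K0)
    (H₂ : LkP X rel P S₂ T c₂ pr₂ im₂ L₂ μ₂ q κm κ K0) (hpq : p.HolderConjugate q)
    (hκm : 0 ≤ κm) (hκ : 0 ≤ κ) (hK : 0 ≤ K0) (hξ₁ : ∀ e ∈ S₁, 0 ≤ ξ₁ e) (hξ₂ : ∀ e ∈ S₂, 0 ≤ ξ₂ e)
    (hp₁ : ∀ e ∈ S₁, 0 ≤ pr₁ e) (hp₂ : ∀ e ∈ S₂, 0 ≤ pr₂ e) (I : Finset ℕ) (E : ℕ → β → β' → ℝ)
    (hE : ∀ i ∈ I, ∀ e ∈ S₁, ∀ e' ∈ S₂, 0 ≤ E i e e' ∧ (E i e e' ≠ 0 → c₁ e = i ∧ c₂ e' ≤ i ∧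
      ∃ t ∈ T, ∃ t' ∈ T, im₁ e t ∈ X ∧ im₂ e' t' ∈ X ∧ rel i (im₂ e' t') (im₁ e t) ∧
        E i e e' ≤ ξ₁ e * L₁ i e t * (ξ₂ e' * L₂ i e' t') * (P (im₂ e' t') * W i (im₁ e t)))) :
    ∑ i ∈ I, ∑ e ∈ S₁, ∑ e' ∈ S₂, E i e e' ≤ K0 * κm * κ * p *
      ((∑ e ∈ S₁, pr₁ e * ξ₁ e ^ p) ^ (1 / p) * (∑ e' ∈ S₂, pr₂ e' * ξ₂ e' ^ q) ^ (1 / q)) := by
  classical
  have hp0 := hpq.pos
  have hq0 := hpq.symm.pos
  set n := I.sup id + 1 with hn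
  have hI : I ⊆ range n := fun i hi => mem_range.2 (Nat.lt_succ_of_le (le_sup (f := id) hi))
  have hform := leakP_form HN H₁ hpq hκ hK hξ₁ n (v := fun i => vP S₂ T c₂ im₂ L₂ ξ₂ i)
    (h := gP S₂ T c₂ im₂ L₂ μ₂ q K0 ξ₂) (fun y _ => gP_nonneg H₂ hK hξ₂ y)
    (fun i _ y hy => vP_le H₂ hpq.symm hK hξ₂ i hy)
  have hterm0 : ∀ i, ∀ e ∈ S₁, c₁ e ≤ i → ∀ e' ∈ S₂, c₂ e' ≤ i → ∀ t ∈ T, ∀ t' ∈ T,
      0 ≤ ξ₁ e * L₁ i e t * (ξ₂ e' * L₂ i e' t') * ker rel W P i (im₂ e' t') (im₁ e t) := by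
    intro i e he hi e' he' hi' t ht t' ht'
    have h1 := H₁.L_nonneg i e he t ht
    have h2 := H₂.L_nonneg i e' he' t' ht'
    by_cases h3 : L₁ i e t = 0
    · rw [h3]; simp
    by_cases h4 : L₂ i e' t' = 0
    · rw [h4]; simp
    refine mul_nonneg (mul_nonneg (mul_nonneg (hξ₁ e he) h1) (mul_nonneg (hξ₂ e' he') h2)) ?_
    unfold ker
    split_ifs
    · exact mul_nonneg (HN.P_nonneg _ (H₂.mem_X he' hi' ht' h4))
        (HN.W_nonneg i _ (H₁.mem_X he hi ht h3))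
    · exact le_rfl
  have hFi : ∀ i, 0 ≤ ∑ y ∈ X, ∑ z ∈ X.filter (fun z => rel i y z),
      P y * W i z * (vP S₂ T c₂ im₂ L₂ ξ₂ i y * uP S₁ T c₁ im₁ L₁ ξ₁ i z) := by
    intro i
    rw [form_words H₁ H₂ i]
    refine sum_nonneg fun e he => sum_nonneg fun e' he' => sum_nonneg fun t ht =>
      sum_nonneg fun t' ht' => ?_
    obtain ⟨h1, h2⟩ := mem_filter.1 he
    obtain ⟨h3, h4⟩ := mem_filter.1 he'
    exact hterm0 i e h1 h2.le e' h3 h4 t ht t' ht'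
  have h1 : ∑ i ∈ I, ∑ e ∈ S₁, ∑ e' ∈ S₂, E i e e' ≤
      ∑ i ∈ range n, ∑ y ∈ X, ∑ z ∈ X.filter (fun z => rel i y z),
      P y * W i z * (vP S₂ T c₂ im₂ L₂ ξ₂ i y * uP S₁ T c₁ im₁ L₁ ξ₁ i z) := by
    refine (sum_le_sum fun i hi => ?_).trans (sum_le_sum_of_subset_of_nonneg hI fun i _ _ => hFi i)
    rw [form_words H₁ H₂ i, sum_filter]
    refine sum_le_sum fun e he => ?_
    split_ifs with hci
    · rw [sum_filter]
      refine sum_le_sum fun e' he' => ?_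
      obtain ⟨h0, h2⟩ := hE i hi e he e' he'
      split_ifs with hci'
      · by_cases hne : E i e e' = 0
        · rw [hne]
          exact sum_nonneg fun t ht => sum_nonneg fun t' ht' =>
            hterm0 i e he hci.le e' he' hci' t ht t' ht'
        obtain ⟨-, -, t, ht, t', ht', hx1, hx2, hr, hle⟩ := h2 hne
        refine hle.trans ?_
        have e1 : ξ₁ e * L₁ i e t * (ξ₂ e' * L₂ i e' t') * (P (im₂ e' t') * W i (im₁ e t)) =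
            ξ₁ e * L₁ i e t * (ξ₂ e' * L₂ i e' t') * ker rel W P i (im₂ e' t') (im₁ e t) := by
          unfold ker
          rw [if_pos hr]
        rw [e1]
        refine le_trans ?_ (single_le_sum (f := fun t => ∑ t' ∈ T, ξ₁ e * L₁ i e t *
          (ξ₂ e' * L₂ i e' t') * ker rel W P i (im₂ e' t') (im₁ e t)) (fun s hs =>
          sum_nonneg fun s' hs' => hterm0 i e he hci.le e' he' hci' s hs s' hs') ht)
        exact single_le_sum (f := fun t' => ξ₁ e * L₁ i e t *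
          (ξ₂ e' * L₂ i e' t') * ker rel W P i (im₂ e' t') (im₁ e t)) (fun s' hs' =>
          hterm0 i e he hci.le e' he' hci' t ht s' hs') ht'
      · by_contra hcon
        push Not at hcon
        exact hci' (h2 hcon.ne').2.1
    · refine (sum_eq_zero fun e' he' => ?_).le
      by_contra hne
      exact hci ((hE i hi e he e' he').2 hne).1
  refine h1.trans (hform.trans ?_)
  -- the constants
  set A := ∑ e ∈ S₁, pr₁ e * ξ₁ e ^ p with hA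
  set B := ∑ e' ∈ S₂, pr₂ e' * ξ₂ e' ^ q with hB
  have hA0 : 0 ≤ A := sum_nonneg fun e he => mul_nonneg (hp₁ e he) (Real.rpow_nonneg (hξ₁ e he) _)
  have hB0 : 0 ≤ B := sum_nonneg fun e he => mul_nonneg (hp₂ e he) (Real.rpow_nonneg (hξ₂ e he) _)
  have hN := gP_norm H₂ hpq.symm.lt hK hξ₂
  rw [← hB] at hN
  have hN0 : 0 ≤ ∑ y ∈ X, P y * gP S₂ T c₂ im₂ L₂ μ₂ q K0 ξ₂ y ^ q :=
    sum_nonneg fun y hy => mul_nonneg (HN.P_nonneg y hy)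
      (Real.rpow_nonneg (gP_nonneg H₂ hK hξ₂ y) _)
  have hinv : 1 / p + 1 / q = 1 := by
    rw [one_div, one_div]
    exact hpq.inv_add_inv_eq_one
  have hpw : ∀ {r s : ℝ}, r.HolderConjugate s → (K0 ^ (r - 1)) ^ (1 / r) = K0 ^ (1 / s) := by
    intro r s hrs
    rw [← Real.rpow_mul hK]
    congr 1
    have h2 : (r - 1) * s = r := hrs.sub_one_mul_conj
    have hr := hrs.pos
    have hs := hrs.symm.pos
    field_simp
    linarith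
  have hKK : ∀ u : ℝ, 0 ≤ u → u ^ (1 / p) * u ^ (1 / q) = u := by
    intro u hu
    rw [← Real.rpow_add_of_nonneg hu (by positivity) (by positivity), hinv, Real.rpow_one]
  have hK1 : 0 ≤ K0 ^ (p - 1) := Real.rpow_nonneg hK _
  have hK2 : 0 ≤ K0 ^ (q - 1) := Real.rpow_nonneg hK _
  have a1 : ((p * κ) ^ p * (K0 ^ (p - 1) * κm * A)) ^ (1 / p) =
      p * κ * (K0 ^ (1 / q) * κm ^ (1 / p) * A ^ (1 / p)) := by
    rw [Real.mul_rpow (by positivity) (by positivity), ← Real.rpow_mul (by positivity),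
      mul_one_div_cancel hp0.ne', Real.rpow_one, Real.mul_rpow (by positivity) hA0,
      Real.mul_rpow hK1 hκm, hpw hpq]
  have a2 : (∑ y ∈ X, P y * gP S₂ T c₂ im₂ L₂ μ₂ q K0 ξ₂ y ^ q) ^ (1 / q) ≤
      K0 ^ (1 / p) * κm ^ (1 / q) * B ^ (1 / q) := by
    refine (Real.rpow_le_rpow hN0 hN (by positivity)).trans (le_of_eq ?_)
    rw [Real.mul_rpow (by positivity) hB0, Real.mul_rpow hK2 hκm, hpw hpq.symm]
  rw [a1]
  calc (∑ y ∈ X, P y * gP S₂ T c₂ im₂ L₂ μ₂ q K0 ξ₂ y ^ q) ^ (1 / q) *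
        (p * κ * (K0 ^ (1 / q) * κm ^ (1 / p) * A ^ (1 / p))) ≤
      K0 ^ (1 / p) * κm ^ (1 / q) * B ^ (1 / q) *
        (p * κ * (K0 ^ (1 / q) * κm ^ (1 / p) * A ^ (1 / p))) := by
        refine mul_le_mul_of_nonneg_right a2 ?_
        have := Real.rpow_nonneg hK (1 / q)
        have := Real.rpow_nonneg hκm (1 / p)
        have := Real.rpow_nonneg hA0 (1 / p)
        positivity
    _ = (K0 ^ (1 / p) * K0 ^ (1 / q)) * (κm ^ (1 / p) * κm ^ (1 / q)) * κ * p *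
        (A ^ (1 / p) * B ^ (1 / q)) := by ring
    _ = _ := by rw [hKK K0 hK, hKK κm hκm]

/-- **Two families with leaks**, both orders of newness. -/
theorem form2 (HN : Nst X rel W P pc) (hpq : p.HolderConjugate q)
    (H₁ : LkP X rel P S₁ T c₁ pr₁ im₁ L₁ μ₁ p κm κ K0)
    (H₂ : LkP X rel P S₂ T c₂ pr₂ im₂ L₂ μ₂ q κm κ K0)
    (hκm : 0 ≤ κm) (hκ : 0 ≤ κ) (hK : 0 ≤ K0) (hξ₁ : ∀ e ∈ S₁, 0 ≤ ξ₁ e) (hξ₂ : ∀ e ∈ S₂, 0 ≤ ξ₂ e)
    (hp₁ : ∀ e ∈ S₁, 0 ≤ pr₁ e) (hp₂ : ∀ e ∈ S₂, 0 ≤ pr₂ e) (I : Finset ℕ) (E : ℕ → β → β' → ℝ)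
    (hE : ∀ i ∈ I, ∀ e ∈ S₁, ∀ e' ∈ S₂, 0 ≤ E i e e' ∧ (E i e e' ≠ 0 → max (c₁ e) (c₂ e') = i ∧
      ∃ t ∈ T, ∃ t' ∈ T, im₁ e t ∈ X ∧ im₂ e' t' ∈ X ∧ rel i (im₁ e t) (im₂ e' t') ∧
        E i e e' ≤ ξ₁ e * L₁ i e t * (ξ₂ e' * L₂ i e' t') * (P (im₁ e t) * W i (im₂ e' t')))) :
    ∑ i ∈ I, ∑ e ∈ S₁, ∑ e' ∈ S₂, E i e e' ≤ K0 * κm * κ * (p + q) *
      ((∑ e ∈ S₁, pr₁ e * ξ₁ e ^ p) ^ (1 / p) * (∑ e' ∈ S₂, pr₂ e' * ξ₂ e' ^ q) ^ (1 / q)) := by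
  classical
  set A := ∑ e ∈ S₁, pr₁ e * ξ₁ e ^ p with hA
  set B := ∑ e' ∈ S₂, pr₂ e' * ξ₂ e' ^ q with hB
  have hb1 := form1 (ξ₁ := ξ₁) (ξ₂ := ξ₂) HN H₁ H₂ hpq hκm hκ hK hξ₁ hξ₂ hp₁ hp₂ I
    (fun i e e' => if c₁ e = i then E i e e' else 0) (by
      intro i hi e he e' he'
      obtain ⟨h0, h1⟩ := hE i hi e he e' he'
      split_ifs with hc
      · refine ⟨h0, fun hne => ?_⟩
        obtain ⟨h2, t, ht, t', ht', hx, hx', hr, hle⟩ := h1 hne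
        refine ⟨hc, by omega, t, ht, t', ht', hx, hx', HN.symm i _ hx _ hx' hr, ?_⟩
        rwa [ker_symm HN hx hx' hr] at hle
      · exact ⟨le_rfl, fun hne => absurd rfl hne⟩)
  have hb2 := form1 (ξ₁ := ξ₂) (ξ₂ := ξ₁) HN H₂ H₁ hpq.symm hκm hκ hK hξ₂ hξ₁ hp₂ hp₁ I
    (fun i e' e => if c₁ e = i then 0 else E i e e') (by
      intro i hi e' he' e he
      obtain ⟨h0, h1⟩ := hE i hi e he e' he'
      split_ifs with hc
      · exact ⟨le_rfl, fun hne => absurd rfl hne⟩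
      · refine ⟨h0, fun hne => ?_⟩
        obtain ⟨h2, t, ht, t', ht', hx, hx', hr, hle⟩ := h1 hne
        refine ⟨by omega, by omega, t', ht', t, ht, hx', hx, hr, ?_⟩
        calc E i e e' ≤ ξ₁ e * L₁ i e t * (ξ₂ e' * L₂ i e' t') *
              (P (im₁ e t) * W i (im₂ e' t')) := hle
          _ = _ := by ring)
  rw [← hA, ← hB] at hb1 hb2
  have e1 : ∑ i ∈ I, ∑ e ∈ S₁, ∑ e' ∈ S₂, E i e e' =
      ∑ i ∈ I, ∑ e ∈ S₁, ∑ e' ∈ S₂, (if c₁ e = i then E i e e' else 0) +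
      ∑ i ∈ I, ∑ e' ∈ S₂, ∑ e ∈ S₁, (if c₁ e = i then 0 else E i e e') := by
    rw [← sum_add_distrib]
    refine sum_congr rfl fun i _ => ?_
    rw [sum_comm (s := S₂), ← sum_add_distrib]
    refine sum_congr rfl fun e _ => ?_
    rw [← sum_add_distrib]
    refine sum_congr rfl fun e' _ => ?_
    split_ifs <;> simp
  rw [e1]
  refine (add_le_add hb1 hb2).trans (le_of_eq ?_)
  ring

end

end Vale.P028.Dp
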