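import Vale.Agent.P028.MathlibUsed
import Vale.Agent.P028.FQ.BMDefs
import Vale.Agent.P028.H232.Fr
import Vale.Agent.P028.H758.Doob
import Vale.Agent.P028.R26.AliveD
attribute [-instance] ProperSMul.toContinuousSMul IsTopologicalTorsor.toContinuousSMul IdemSemiring.toCanonicallyOrderedAdd IdemSemiring.toMulLeftMono IdemSemiring.toMulRightMono AddQuantale.instAddLeftMono AddQuantale.instAddRightMono Quantale.instMulLeftMono Quantale.instMulRightMono FiniteDimensional.rclike_to_real IsScalarTower.complexToReal FiniteDimensional.complexToReal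

/-!
# Class O (small complexity): the structure of the pairs
-/

namespace Vale.P028.SK

open Finset CF RN

variable {g : Cfg}

/-- the dilution vanishes at the primes of the stages at which the fraction is final -/
def DFin (g : Cfg) (δ : ℕ → ℕ → ℝ) : Prop := ∀ q ∈ g.V, ∀ (i : ℕ) (F : ℚ), 1 ≤ i → i ≤ nst g →
  Un g i (nst g + 1) q F → ∀ p ∈ Pm g q, p ≤ z g i → δ q p = 0

theorem log_rpow_le {x : ℝ} (hx : 1 ≤ x) : (Real.log x) ^ (3 / 2 : ℝ) ≤ x := by
  have h0 : 0 < x := by linarith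
  have hl : 0 ≤ Real.log x := Real.log_nonneg hx
  have h1 : Real.log x ≤ x ^ (2 / 3 : ℝ) := by
    have h2 : Real.log (x ^ (2 / 3 : ℝ)) ≤ x ^ (2 / 3 : ℝ) / Real.exp 1 := by
      have h3 := Real.add_one_le_exp (Real.log (x ^ (2 / 3 : ℝ)) - 1)
      rw [Real.exp_sub, Real.exp_log (by positivity)] at h3
      linarith
    rw [Real.log_rpow h0] at h2
    have h4 : (2 : ℝ) ≤ Real.exp 1 := by
      have := Real.add_one_le_exp (1 : ℝ)
      linarith
    have h5 : x ^ (2 / 3 : ℝ) / Real.exp 1 ≤ x ^ (2 / 3 : ℝ) / 2 :=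
      div_le_div_of_nonneg_left (by positivity) (by norm_num) h4
    have h6 : 0 < x ^ (2 / 3 : ℝ) := by positivity
    linarith
  calc (Real.log x) ^ (3 / 2 : ℝ) ≤ (x ^ (2 / 3 : ℝ)) ^ (3 / 2 : ℝ) :=
        Real.rpow_le_rpow hl h1 (by norm_num)
    _ = x := by
        rw [← Real.rpow_mul h0.le]
        norm_num

/-- primes above `zs` do not divide the denominators -/
theorem not_dvd_den_old {i q : ℕ} {F : ℚ} (hK : CF.KK g i q F ≤ zs g) {p : ℕ}
    (hzp : zs g < p) : ¬ p ∣ ((M g i q : ℚ) * F).den := by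
  intro h
  have h1 := Nat.le_of_dvd (Rat.den_pos _) h
  have h2 : ((((M g i q : ℚ) * F).den : ℕ) : ℝ) ≤ CF.KK g i q F := by
    have := PA.den_le_Kc (g.γ) (ψ g q) (M g i q) F
    exact this
  have h3 : (((M g i q : ℚ) * F).den : ℝ) ≤ zs g := h2.trans hK
  have h4 : ((M g i q : ℚ) * F).den ≤ zs g := by exact_mod_cast h3
  omega

/-- one side of the alive analysis in class O -/
theorem alive_old_side (hJ : JsOK g.K g.Js) (hX : g.Js ≤ g.X) (hV : g.V ⊆ Icc 1 (N g))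
    {δ : ℕ → ℕ → ℝ} (hδ : DFin g δ) {i q r : ℕ} {F G : ℚ} {n : ℤ} (hi1 : 1 ≤ i) (hi2 : i ≤ nst g)
    (hq : q ∈ g.V) (hr : r ∈ g.V) (hc : Clean g (z g i) q r)
    (hUq : Un g i (nst g + 1) q F) (hKq : CF.KK g i q F ≤ zs g) (hKr : CF.KK g i r G ≤ zs g)
    (hal : (n : ℚ) + F * ((cofac r q : ℤ) : ℚ) - G * ((cofac q r : ℤ) : ℚ) = 0)
    (hn : n ∈ Sh g q r) (hK : Kd g δ q r n ≠ 0) {p : ℕ} (hp : p.Prime) (hzp : zs g < p)
    (hpN : p ≤ N g) (hpa : p ∣ rcof (z g i) (N g) (kc g q) q r) :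
    p ≤ z g i ∧ q.factorization p < kc g q p := by
  obtain ⟨b, hb⟩ := hUq i le_rfl (by omega)
  have hz : zs g ≤ z g i := zs_le_z hJ hX i
  have h1 : 1 ≤ CF.KK g i q F := PA.one_le_KK (dat g) _ _ _
  have hlog : (Real.log (CF.KK g i q F)) ^ (3 / 2 : ℝ) ≤ (zs g : ℕ) := (log_rpow_le h1).trans hKq
  obtain ⟨hpz, h2⟩ := alive_dil hJ hX hV hi1 hi2 hz le_rfl hq hr hc hb hal hlog hn hK hp hzp hpN
    (not_dvd_den_old hKr hzp) hpa
  refine ⟨hpz, ?_⟩
  rcases h2 with h2 | ⟨h2, h3⟩ | h2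
  · exact h2
  · exact absurd (hδ q hq i F hi1 hi2 hUq p (mem_Lks.1 h2).1 hpz) h3
  · exfalso
    apply h2
    obtain ⟨s1, s2, s3, s4⟩ := sg_spec hJ hX hzp hpN
    have hil : i ≤ sg g p := by
      by_contra hlt
      have h6 := z_anti g (show sg g p + 1 ≤ i by omega)
      omega
    exact hUq (sg g p) hil (by omega)

/-- **The alive analysis in class O.** -/
theorem alive_old (hJ : JsOK g.K g.Js) (hX : g.Js ≤ g.X) (hV : g.V ⊆ Icc 1 (N g))
    (hK0 : K0c g ≤ zs g) {δ : ℕ → ℕ → ℝ} (hδ : DFin g δ) {i q r : ℕ} {n : ℤ} (hi1 : 1 ≤ i)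
    (hi2 : i ≤ nst g) (hq : q ∈ g.V) (hr : r ∈ g.V) (hT : TAo g i q r n)
    (hn : n ∈ Sh g q r) (hK : Kd g δ q r n ≠ 0) : Alive g i (zs g) 1 q r := by
  obtain ⟨⟨⟨F', b, G', b', h1, h2, hal⟩, -, hc, -⟩, -, -, F, G, hUq, hUr, hKS⟩ := hT
  obtain ⟨c, hc1⟩ := hUq i le_rfl (by omega)
  obtain ⟨c', hc2⟩ := hUr i le_rfl (by omega)
  rw [hc1, Option.some.injEq, Prod.mk.injEq] at h1
  rw [hc2, Option.some.injEq, Prod.mk.injEq] at h2
  obtain ⟨rfl, -⟩ := h1
  obtain ⟨rfl, -⟩ := h2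
  have hz : zs g ≤ z g i := zs_le_z hJ hX i
  have hKq : CF.KK g i q F ≤ zs g := ((le_max_left _ _).trans hKS.le).trans hK0
  have hKr : CF.KK g i r G ≤ zs g := ((le_max_right _ _).trans hKS.le).trans hK0
  intro p hp hyp hpN _
  refine ⟨fun hpa => alive_old_side hJ hX hV hδ hi1 hi2 hq hr hc hUq hKq hKr hal hn hK hp hyp
    hpN hpa, fun hpb => ?_⟩
  rw [← rcof_swap hV hz hq hr hc] at hpb
  refine alive_old_side (n := -n) hJ hX hV hδ hi1 hi2 hr hq (hc.swap hr) hUr hKr hKq ?_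
    (Sh_neg hn) (by rw [Kd_swap]; exact hK) hp hyp hpN hpb
  push_cast at hal ⊢
  linarith

/-- alive pairs are in one cell down to `zs` -/
theorem cell_old (hV : g.V ⊆ Icc 1 (N g)) {i q r : ℕ} (hz : zs g ≤ z g i) (hq : q ∈ g.V)
    (hr : r ∈ g.V) (hc : Clean g (z g i) q r) (hA : Alive g i (zs g) 1 q r) :
    r ∈ NT.cell g.V (f g) (thr g) (N g) (zs g) q := by
  by_contra hcon
  obtain ⟨p, hp, hzp, hpN, hcell, hs, hne⟩ := NT.exists_sep hr hcon
  obtain ⟨hcz, hcr⟩ := clean_cross hV hz hq hr hc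
  have hpz : p ≤ z g i := by
    by_contra hlt
    have h1 : r ∈ NT.cell g.V (f g) (thr g) (N g) (p - 1) q :=
      NT.cell_mono (by omega) q hcz
    rw [NT.cell_split hs.1.pos hpN hs, mem_filter] at h1
    exact hne h1.2
  have hce : NT.cell g.V (f g) (thr g) (N g) p r = NT.cell g.V (f g) (thr g) (N g) p q :=
    NT.cell_eq hcell
  have k1 : kc g q p = q.factorization p := by
    unfold kc NT.kN
    rw [if_pos hpN, NT.kk_of_split hs]
  have k2 : kc g r p = r.factorization p := by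
    unfold kc NT.kN
    rw [if_pos hpN, NT.kk_of_split (by rw [hce]; exact hs)]
  obtain ⟨f1, f2⟩ := rcof_fac hV hz hq hr hc hp
  rw [if_pos hpz] at f1 f2
  obtain ⟨a1, a2⟩ := hA p hp hzp hpN (fun h => hp.one_lt.ne' (Nat.dvd_one.1 h))
  rcases lt_or_gt_of_ne hne with h | h
  · have := (a1 (Nat.dvd_of_factorization_pos (by omega))).2
    omega
  · have := (a2 (Nat.dvd_of_factorization_pos (by omega))).2
    omega

/-- the primes at which `q` deviates -/
noncomputable def dvS (g : Cfg) (q : ℕ) : Finset ℕ := (NT.PzN (zs g) (N g)).filter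
  (fun p => q.factorization p ≠ NT.kk g.V (f g) (thr g) (N g) q p)

theorem mem_dvS {q p : ℕ} : p ∈ dvS g q ↔ (p.Prime ∧ zs g < p ∧ p ≤ N g) ∧
    q.factorization p ≠ kc g q p := by
  unfold dvS
  rw [mem_filter, NT.mem_PzN]
  constructor
  · rintro ⟨h1, h2⟩
    refine ⟨h1, ?_⟩
    unfold kc NT.kN
    rw [if_pos h1.2.2]
    exact h2
  · rintro ⟨h1, h2⟩
    refine ⟨h1, ?_⟩
    unfold kc NT.kN at h2
    rw [if_pos h1.2.2] at h2
    exact h2

/-- the large primes of the reduced cofactors of an alive pair are deviations of both -/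
theorem dev_old (hV : g.V ⊆ Icc 1 (N g)) {i q r : ℕ} (hz : zs g ≤ z g i) (hq : q ∈ g.V)
    (hr : r ∈ g.V) (hc : Clean g (z g i) q r) (hA : Alive g i (zs g) 1 q r) {p : ℕ}
    (hp : p.Prime) (hzp : zs g < p)
    (h : p ∣ rcof (z g i) (N g) (kc g q) q r ∨ p ∣ rcof (z g i) (N g) (kc g q) r q) :
    p ∈ dvS g q ∧ p ∈ dvS g r := by
  have hcell := cell_old hV hz hq hr hc hA
  have hk : kc g r p = kc g q p := kc_congr hcell hzp
  obtain ⟨-, -, -, ha, hb⟩ := clean_cofac hV hz hq hr hc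
  obtain ⟨f1, f2⟩ := rcof_fac hV hz hq hr hc hp
  have hq1 := mem_Icc.1 (hV hq)
  have hr1 := mem_Icc.1 (hV hr)
  have hpN : p ≤ N g := by
    by_contra hlt
    have e1 := Nat.factorization_eq_zero_of_lt (show q < p by omega)
    have e2 := Nat.factorization_eq_zero_of_lt (show r < p by omega)
    rcases h with h | h
    · have := hp.factorization_pos_of_dvd ha.ne' h
      split_ifs at f1 <;> omega
    · have := hp.factorization_pos_of_dvd hb.ne' h
      split_ifs at f2 <;> omega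
  obtain ⟨a1, a2⟩ := hA p hp hzp hpN (fun h => hp.one_lt.ne' (Nat.dvd_one.1 h))
  rcases h with h | h
  · obtain ⟨h1, h2⟩ := a1 h
    have h3 := hp.factorization_pos_of_dvd ha.ne' h
    rw [if_pos h1] at f1
    exact ⟨mem_dvS.2 ⟨⟨hp, hzp, hpN⟩, by omega⟩, mem_dvS.2 ⟨⟨hp, hzp, hpN⟩, by omega⟩⟩
  · obtain ⟨h1, h2⟩ := a2 h
    have h3 := hp.factorization_pos_of_dvd hb.ne' h
    rw [if_pos h1] at f2
    exact ⟨mem_dvS.2 ⟨⟨hp, hzp, hpN⟩, by omega⟩, mem_dvS.2 ⟨⟨hp, hzp, hpN⟩, by omega⟩⟩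

/-! ### The stage of a pair -/

/-- the stage from which the fraction of `q` is final -/
noncomputable def cc (g : Cfg) (q : ℕ) : ℕ := sInf {c : ℕ | 1 ≤ c ∧ ∀ j, c ≤ j → j ≤ nst g →
  (st g j q).map Prod.fst = (st g (nst g) q).map Prod.fst}

theorem cc_spec (g : Cfg) (q : ℕ) : 1 ≤ cc g q ∧ ∀ j, cc g q ≤ j → j ≤ nst g →
    (st g j q).map Prod.fst = (st g (nst g) q).map Prod.fst := by
  have h : {c : ℕ | 1 ≤ c ∧ ∀ j, c ≤ j → j ≤ nst g →
      (st g j q).map Prod.fst = (st g (nst g) q).map Prod.fst}.Nonempty :=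
    ⟨nst g + 1, by omega, fun j h1 h2 => by omega⟩
  exact Nat.sInf_mem h

theorem cc_le {i q : ℕ} {F : ℚ} (hi1 : 1 ≤ i) (hi2 : i ≤ nst g) (h : Un g i (nst g + 1) q F) :
    cc g q ≤ i := by
  refine Nat.sInf_le ⟨hi1, fun j h1 h2 => ?_⟩
  obtain ⟨b, hb⟩ := h j h1 (by omega)
  obtain ⟨b', hb'⟩ := h (nst g) hi2 (by omega)
  rw [hb, hb']
  rfl

/-- **the stage of a pair of class O** is the larger of the two final stages -/
theorem stage_old {i q r : ℕ} {n : ℤ} (hi1 : 1 ≤ i) (hi2 : i ≤ nst g) (hT : TAo g i q r n) :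
    i = max (cc g q) (cc g r) := by
  obtain ⟨⟨⟨F', b, G', b', h1, h2, hal⟩, hNA, hc, -⟩, -, -, F, G, hUq, hUr, hKS⟩ := hT
  obtain ⟨c, hc1⟩ := hUq i le_rfl (by omega)
  obtain ⟨c', hc2⟩ := hUr i le_rfl (by omega)
  rw [hc1, Option.some.injEq, Prod.mk.injEq] at h1
  rw [hc2, Option.some.injEq, Prod.mk.injEq] at h2
  obtain ⟨rfl, -⟩ := h1
  obtain ⟨rfl, -⟩ := h2
  have hle : max (cc g q) (cc g r) ≤ i := max_le (cc_le hi1 hi2 hUq) (cc_le hi1 hi2 hUr)
  refine le_antisymm ?_ hle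
  by_contra hlt
  push Not at hlt
  have hs1 := cc_spec g q
  have hs2 := cc_spec g r
  have key : ∀ (s : ℕ) (H : ℚ), cc g s ≤ i - 1 → Un g i (nst g + 1) s H →
      ∃ d, st g (i - 1) s = some (H, d) := by
    intro s H h3 h4
    have h5 := (cc_spec g s).2 (i - 1) h3 (by omega)
    obtain ⟨e, he⟩ := h4 (nst g) hi2 (by omega)
    rw [he] at h5
    cases h6 : st g (i - 1) s with
    | none => rw [h6] at h5; simp at h5
    | some x =>
      rw [h6] at h5
      simp only [Option.map_some, Option.some.injEq] at h5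
      exact ⟨x.2, by rw [← h5]⟩
  obtain ⟨d, hd⟩ := key q F (by omega) hUq
  obtain ⟨d', hd'⟩ := key r G (by omega) hUr
  exact hNA (i - 1) (by omega) le_rfl ⟨F, d, G, d', hd, hd', hal⟩

end Vale.P028.SK
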