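import Vale.Agent.P028.MathlibUsed
import Vale.Agent.P028.R2.POldA
attribute [-instance] ProperSMul.toContinuousSMul IsTopologicalTorsor.toContinuousSMul IdemSemiring.toCanonicallyOrderedAdd IdemSemiring.toMulLeftMono IdemSemiring.toMulRightMono AddQuantale.instAddLeftMono AddQuantale.instAddRightMono Quantale.instMulLeftMono Quantale.instMulRightMono FiniteDimensional.rclike_to_real IsScalarTower.complexToReal FiniteDimensional.complexToReal

/-!
# Pairs at the stage of the newer modulus: the form of one pattern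

The pairs `(q, r)` aligned for the first time at the stage `cc g r`, with given reduced cofactors:
the geometric mean of the two one-sided bounds is a form of nested averages in `q` and the hybrid
number `r a / b`.
-/

namespace Vale.P028.SK

open Finset CF RN

variable {g : Cfg}

/-- the geometric mean of the two one-sided weights of a pair -/
noncomputable def gm (g : Cfg) (i q r : ℕ) : ℝ :=
  Real.sqrt ((f g q * Wt g i r) * (f g r * Wt g i q))

theorem gm_nonneg (i q r : ℕ) : 0 ≤ gm g i q r := Real.sqrt_nonneg _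

/-- the weight of an aligned pair, geometric form -/
theorem term_gm (hρ : Real.exp 1 ≤ g.K.P.ρ0 ^ (-g.K.P.c0)) (hJ : JsOK g.K g.Js)
    (hX : g.Js ≤ g.X) (hV : g.V ⊆ Icc 1 (N g)) {δ : ℕ → ℕ → ℝ}
    (hδ : Om δ) {i q r : ℕ} (hq : q ∈ V1 g) (hr : r ∈ V1 g)
    {n : ℤ} (hn : n ∈ Sh g q r) (hT : TAj g i q r n) (hD : Dl g q r ≤ z g i) :
    f g q * f g r / Dl g q r * Kd g δ q r n ≤ Real.exp 353 * 65536 * (gm g i q r *
      (((rcof (z g i) (N g) (kc g q) q r : ℕ) : ℝ) *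
        ((rcof (z g i) (N g) (kc g q) r q : ℕ) : ℝ)) ^ (-(9 / 20) : ℝ)) := by
  have hqV : q ∈ g.V := (mem_filter.1 (mem_filter.1 hq).1).1
  have hrV : r ∈ g.V := (mem_filter.1 (mem_filter.1 hr).1).1
  have hz : zs g ≤ z g i := zs_le_z hJ hX i
  have h1 := term_TA_le hρ hJ hX hV hδ hq hr hn hT hD
  have h2 := term_TA_le hρ hJ hX hV hδ hr hq (Sh_neg hn) (hT.swap hrV) (by rw [Dl_swap]; exact hD)
  rw [Kd_swap, Dl_swap, mul_comm (f g r) (f g q),
    rcof_swap hV hz hqV hrV hT.2.2.1 r q] at h2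
  rw [Wt_cell (clean_cross hV hz hqV hrV hT.2.2.1).1] at h1
  rw [Wt_cell (clean_cross hV hz hrV hqV (hT.2.2.1.swap hrV)).1] at h2
  obtain ⟨-, -, -, hu, hv⟩ := clean_cofac hV hz hqV hrV hT.2.2.1
  set a := rcof (z g i) (N g) (kc g q) q r with ha
  set b := rcof (z g i) (N g) (kc g q) r q with hb
  have ha0 : (0 : ℝ) < a := by exact_mod_cast hu
  have hb0 : (0 : ℝ) < b := by exact_mod_cast hv
  set A := f g q * Wt g i r with hA
  set B := f g r * Wt g i q with hB
  have hA0 : 0 ≤ A := mul_nonneg (f_nonneg g q) (Wt_nonneg _ _)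
  have hB0 : 0 ≤ B := mul_nonneg (f_nonneg g r) (Wt_nonneg _ _)
  set C := Real.exp 353 * 65536 with hC
  have hC0 : 0 < C := by positivity
  set T := f g q * f g r / Dl g q r * Kd g δ q r n with hTdef
  have hT0 : 0 ≤ T := mul_nonneg (ff_nonneg g q r) (Kd_nonneg g hδ q r n)
  set y : ℝ := ((a : ℝ) * b) ^ (-(9 / 20) : ℝ) with hy
  have hy0 : 0 ≤ y := by positivity
  have hy2 : (a : ℝ) ^ (-(9 / 10) : ℝ) * (b : ℝ) ^ (-(9 / 10) : ℝ) = y ^ 2 := by
    rw [hy, ← Real.mul_rpow ha0.le hb0.le, ← Real.rpow_natCast, ← Real.rpow_mul (by positivity)]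
    norm_num
  have h3 : T ^ 2 ≤ (C * (gm g i q r * y)) ^ 2 := by
    have h4 : T * T ≤ (C * (A * (a : ℝ) ^ (-(9 / 10) : ℝ))) * (C * (B * (b : ℝ) ^ (-(9 / 10) : ℝ))) :=
      mul_le_mul h1 h2 hT0 (by positivity)
    have h5 : (C * (A * (a : ℝ) ^ (-(9 / 10) : ℝ))) * (C * (B * (b : ℝ) ^ (-(9 / 10) : ℝ))) =
        C ^ 2 * (A * B) * y ^ 2 := by
      rw [← hy2]
      ring
    rw [h5] at h4
    have h6 : gm g i q r ^ 2 = A * B := by
      unfold gm
      rw [Real.sq_sqrt (mul_nonneg hA0 hB0)]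
    calc T ^ 2 = T * T := by ring
      _ ≤ C ^ 2 * (A * B) * y ^ 2 := h4
      _ = _ := by
          rw [← h6]
          ring
  exact le_of_sq_le_sq h3 (mul_nonneg hC0.le (mul_nonneg (gm_nonneg _ _ _) hy0))

theorem f_pos' {q : ℕ} (hq : 0 < q) : 0 < f g q := by
  unfold f
  have h1 : (0 : ℝ) < max 1 g.X := lt_of_lt_of_le one_pos (le_max_left _ _)
  have h2 : (0 : ℝ) < q.totient := by exact_mod_cast Nat.totient_pos.2 hq
  positivity

/-- the mass of the hybrid number -/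
theorem hyb_mass (hV : g.V ⊆ Icc 1 (N g)) {i q r : ℕ} (hz : zs g ≤ z g i) (hq : q ∈ g.V)
    (hr : r ∈ g.V) (hc : Clean g (z g i) q r) :
    f g (hyb g i q r) * Wt g i q = f g q * Wt g i r := by
  have hq1 := mem_Icc.1 (hV hq)
  obtain ⟨hcell, -⟩ := clean_cross hV hz hq hr hc
  obtain ⟨h1, h2⟩ := hyb_Gd hV hq hcell
  rw [f_eq_Wt_pc hz h1 h2, pcU_congr (hyb_Sf hV hz hq hr hc), hyb_Wt hV hz hq hr hc,
    f_eq_Wt_pc hz hq1.1 (Qc_exp hq)]
  ring

/-- the geometric mean in terms of the hybrid number -/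
theorem gm_eq (hV : g.V ⊆ Icc 1 (N g)) {i q r : ℕ} (hz : zs g ≤ z g i) (hq : q ∈ g.V)
    (hr : r ∈ g.V) (hc : Clean g (z g i) q r) :
    gm g i q r = f g q * Wt g i (hyb g i q r) *
      (1 * Real.sqrt (f g r / f g (hyb g i q r))) := by
  have hq1 := mem_Icc.1 (hV hq)
  obtain ⟨hcell, -⟩ := clean_cross hV hz hq hr hc
  have hh0 := hyb_pos hq1.1 hcell
  have h1 := hyb_mass hV hz hq hr hc
  have h2 := hyb_Wt hV hz hq hr hc
  have h3 : 0 < f g (hyb g i q r) := f_pos' hh0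
  have h4 : 0 ≤ f g q * Wt g i r := mul_nonneg (f_nonneg g q) (Wt_nonneg _ _)
  rw [h2, one_mul]
  unfold gm
  set h := hyb g i q r with hh
  have e : (f g q * Wt g i r) * (f g r * Wt g i q) = (f g q * Wt g i r) ^ 2 * (f g r / f g h) := by
    have h5 : Wt g i q = f g q * Wt g i r / f g h := by
      rw [← h1]
      field_simp
    calc (f g q * Wt g i r) * (f g r * Wt g i q) =
        (f g q * Wt g i r) * (f g r * (f g q * Wt g i r / f g h)) := by rw [← h5]
      _ = _ := by ring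
  rw [e, Real.sqrt_mul (sq_nonneg _), Real.sqrt_sq h4]

open Classical in
/-- **The form of one pattern.** -/
theorem form_pat (hV : g.V ⊆ Icc 1 (N g)) (hz : ∀ i, zs g ≤ z g i) {S : Finset ℕ} (hS : S ⊆ g.V)
    {a b : ℕ} {L : ℕ → ℕ → Prop}
    (hL : ∀ q ∈ S, ∀ r ∈ S, L q r → Clean g (z g (cc g r)) q r ∧
      rcof (z g (cc g r)) (N g) (kc g q) q r = a ∧ rcof (z g (cc g r)) (N g) (kc g q) r q = b) :
    ∑ q ∈ S, ∑ r ∈ S.filter (fun r => L q r), gm g (cc g r) q r ≤
      ∑ q ∈ S.filter (fun q => ∃ r ∈ S, L q r), f g q +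
        ∑ r ∈ S.filter (fun r => ∃ q ∈ S, L q r), f g r := by
  set R := S.filter (fun r => ∃ q ∈ S, L q r) with hR
  set hy : ℕ → ℕ := fun r => r * a / b with hhy
  -- the hybrid numbers
  have hyb1 : ∀ q ∈ S, ∀ r ∈ S, L q r → hyb g (cc g r) q r = hy r ∧ hy r * b = r * a ∧ 0 < a ∧
      0 < b := by
    intro q hq r hr h
    obtain ⟨hc, h1, h2⟩ := hL q hq r hr h
    obtain ⟨-, -, -, ha, hb⟩ := clean_cofac hV (hz _) (hS hq) (hS hr) hc
    rw [h1] at ha
    rw [h2] at hb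
    have h3 := hyb_rcof hV (hz _) (hS hq) (hS hr) hc
    rw [h1, h2] at h3
    have h4 : hyb g (cc g r) q r = hy r := by
      simp only [hhy]
      rw [← h3, Nat.mul_div_cancel _ hb]
    exact ⟨h4, by rw [← h4]; exact h3, ha, hb⟩
  have hyR : ∀ r ∈ R, 0 < hy r ∧ hy r * b / a = r ∧
      ∀ p, (Qc g (hy r)).factorization p ≤ Eb g := by
    intro r hr
    obtain ⟨hrS, q, hq, h⟩ := mem_filter.1 hr
    obtain ⟨h1, h2, h3, h4⟩ := hyb1 q hq r hrS h
    obtain ⟨hc, -, -⟩ := hL q hq r hrS h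
    obtain ⟨hcell, -⟩ := clean_cross hV (hz _) (hS hq) (hS hrS) hc
    obtain ⟨h5, h6⟩ := hyb_Gd hV (hS hq) hcell
    rw [h1] at h5 h6
    exact ⟨h5, by rw [h2, Nat.mul_div_cancel _ h3], h6⟩
  have hinj : ∀ r ∈ R, ∀ r' ∈ R, hy r = hy r' → r = r' := by
    intro r hr r' hr' h
    rw [← (hyR r hr).2.1, ← (hyR r' hr').2.1, h]
  set X := S ∪ R.image hy with hXdef
  have hGd : Gd g X := by
    refine Gd.union ((Gd_V hV).sub hS) ?_
    intro y hy'
    obtain ⟨r, hr, rfl⟩ := mem_image.1 hy'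
    exact ⟨(hyR r hr).1, (hyR r hr).2.2⟩
  have H := nstU hGd hz
  set u : ℕ → ℝ := fun x => if x ∈ S ∧ ∃ r ∈ S, L x r then 1 else 0 with hu
  set v : ℕ → ℝ := fun y => if y ∈ R.image hy then Real.sqrt (f g (y * b / a) / f g y) else 0
    with hv
  set c : ℕ → ℕ := fun y => cc g (y * b / a) with hcdef
  have hu0 : ∀ x, 0 ≤ u x := by
    intro x
    simp only [hu]
    split_ifs
    · exact zero_le_one
    · exact le_rfl
  have hv0 : ∀ x, 0 ≤ v x := by
    intro x
    simp only [hv]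
    split_ifs
    · exact Real.sqrt_nonneg _
    · exact le_rfl
  set n := S.sup (cc g) + 1 with hn
  have hform := Db.form_le H (c := c) (fun x _ => hu0 x) (fun x _ => hv0 x) n
  -- the two norms
  have hA : ∑ x ∈ X, f g x * u x ^ 2 = ∑ q ∈ S.filter (fun q => ∃ r ∈ S, L q r), f g q := by
    have e1 : ∀ x ∈ X, f g x * u x ^ 2 = if x ∈ S ∧ ∃ r ∈ S, L x r then f g x else 0 := by
      intro x _
      simp only [hu]
      split_ifs <;> simp
    rw [sum_congr rfl e1, ← sum_filter]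
    refine sum_congr ?_ fun _ _ => rfl
    ext x
    rw [mem_filter, mem_filter]
    constructor
    · rintro ⟨-, h1, h2⟩
      exact ⟨h1, h2⟩
    · rintro ⟨h1, h2⟩
      exact ⟨mem_union_left _ h1, h1, h2⟩
  have hB : ∑ x ∈ X, f g x * v x ^ 2 = ∑ r ∈ R, f g r := by
    have e1 : ∀ x ∈ X, f g x * v x ^ 2 = if x ∈ R.image hy then f g (x * b / a) else 0 := by
      intro x _
      simp only [hv]
      split_ifs with h
      · obtain ⟨r, hr, rfl⟩ := mem_image.1 h
        have h1 : 0 < f g (hy r) := f_pos' (hyR r hr).1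
        rw [Real.sq_sqrt (div_nonneg (f_nonneg g _) h1.le)]
        field_simp
      · simp
    rw [sum_congr rfl e1, ← sum_filter]
    have e2 : X.filter (fun x => x ∈ R.image hy) = R.image hy := by
      ext x
      rw [mem_filter]
      exact ⟨fun h => h.2, fun h => ⟨mem_union_right _ h, h⟩⟩
    rw [e2, sum_image fun r hr r' hr' h => hinj r hr r' hr' h]
    exact sum_congr rfl fun r hr => by rw [(hyR r hr).2.1]
  rw [hA, hB] at hform
  set A := ∑ q ∈ S.filter (fun q => ∃ r ∈ S, L q r), f g q with hAdef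
  set B := ∑ r ∈ R, f g r with hBdef
  have hA0 : 0 ≤ A := sum_nonneg fun q _ => f_nonneg g q
  have hB0 : 0 ≤ B := sum_nonneg fun q _ => f_nonneg g q
  have hAB : 2 * (Real.sqrt A * Real.sqrt B) ≤ A + B := by
    have h1 := Real.sq_sqrt hA0
    have h2 := Real.sq_sqrt hB0
    nlinarith [sq_nonneg (Real.sqrt A - Real.sqrt B)]
  refine le_trans ?_ (hform.trans hAB)
  -- the left side
  have hterm0 : ∀ i, ∀ x ∈ X, ∀ y ∈ X, 0 ≤ f g x * Wt g i y * (u x * v y) := by
    intro i x _ y _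
    exact mul_nonneg (mul_nonneg (f_nonneg g x) (Wt_nonneg _ _)) (mul_nonneg (hu0 x) (hv0 y))
  have e1 : ∑ q ∈ S, ∑ r ∈ S.filter (fun r => L q r), gm g (cc g r) q r =
      ∑ i ∈ range n, ∑ q ∈ S, ∑ r ∈ (S.filter (fun r => L q r)).filter (fun r => cc g r = i),
        gm g (cc g r) q r := by
    rw [sum_comm]
    refine sum_congr rfl fun q _ => ?_
    rw [sum_fiberwise_of_maps_to]
    intro r hr
    rw [mem_range, hn]
    exact Nat.lt_succ_of_le (le_sup (f := cc g) (mem_filter.1 hr).1)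
  rw [e1]
  refine sum_le_sum fun i _ => ?_
  have e2 : ∀ q ∈ S, ∑ r ∈ (S.filter (fun r => L q r)).filter (fun r => cc g r = i),
      gm g (cc g r) q r ≤ ∑ y ∈ X.filter (fun y => Sf g i q y ∧ c y = i),
        f g q * Wt g i y * (u q * v y) := by
    intro q hq
    have hmem : ∀ r ∈ (S.filter (fun r => L q r)).filter (fun r => cc g r = i),
        r ∈ S ∧ L q r ∧ cc g r = i ∧ r ∈ R := by
      intro r hr
      obtain ⟨h1, h2⟩ := mem_filter.1 hr
      obtain ⟨h3, h4⟩ := mem_filter.1 h1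
      exact ⟨h3, h4, h2, mem_filter.2 ⟨h3, q, hq, h4⟩⟩
    have e3 : ∑ r ∈ (S.filter (fun r => L q r)).filter (fun r => cc g r = i),
        gm g (cc g r) q r = ∑ y ∈ ((S.filter (fun r => L q r)).filter
          (fun r => cc g r = i)).image hy, f g q * Wt g i y * (u q * v y) := by
      rw [sum_image fun r hr r' hr' h => hinj r (hmem r hr).2.2.2 r' (hmem r' hr').2.2.2 h]
      refine sum_congr rfl fun r hr => ?_
      obtain ⟨h1, h2, h3, h4⟩ := hmem r hr
      obtain ⟨k1, -, -, -⟩ := hyb1 q hq r h1 h2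
      obtain ⟨hc, -, -⟩ := hL q hq r h1 h2
      rw [gm_eq hV (hz _) (hS hq) (hS h1) hc, k1, h3]
      have hu1 : u q = 1 := by
        simp only [hu]
        rw [if_pos ⟨hq, r, h1, h2⟩]
      have hv1 : v (hy r) = Real.sqrt (f g r / f g (hy r)) := by
        simp only [hv]
        rw [if_pos (mem_image_of_mem hy h4), (hyR r h4).2.1]
      rw [hu1, hv1]
    rw [e3]
    refine sum_le_sum_of_subset_of_nonneg ?_ fun y hy' _ => hterm0 i q (mem_union_left _ hq) y
      (mem_filter.1 hy').1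
    intro y hy'
    obtain ⟨r, hr, rfl⟩ := mem_image.1 hy'
    obtain ⟨h1, h2, h3, h4⟩ := hmem r hr
    obtain ⟨k1, -, -, -⟩ := hyb1 q hq r h1 h2
    obtain ⟨hc, -, -⟩ := hL q hq r h1 h2
    have h5 := hyb_Sf hV (hz _) (hS hq) (hS h1) hc
    rw [k1, h3] at h5
    refine mem_filter.2 ⟨mem_union_right _ (mem_image_of_mem hy h4), h5.symm, ?_⟩
    simp only [hcdef]
    rw [(hyR r h4).2.1, h3]
  refine (sum_le_sum e2).trans ?_
  exact sum_le_sum_of_subset_of_nonneg subset_union_left fun x hx _ =>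
    sum_nonneg fun y hy' => hterm0 i x hx y (mem_filter.1 hy').1

end Vale.P028.SK
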