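import Vale.Agent.P028.MathlibUsed
import Vale.Agent.P028.R2.POldC
import Vale.Agent.P028.H530.Delta
attribute [-instance] ProperSMul.toContinuousSMul IsTopologicalTorsor.toContinuousSMul IdemSemiring.toCanonicallyOrderedAdd IdemSemiring.toMulLeftMono IdemSemiring.toMulRightMono AddQuantale.instAddLeftMono AddQuantale.instAddRightMono Quantale.instMulLeftMono Quantale.instMulRightMono FiniteDimensional.rclike_to_real IsScalarTower.complexToReal FiniteDimensional.complexToReal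

/-!
# Class O (small complexity): the statement `POld`
-/

namespace Vale.P028.SK

open Finset CF RN H669 RK

variable {g : Cfg}

/-- the dilution of H530 vanishes after the last newness -/
theorem DFin_dd (hV : g.V ⊆ Icc 1 (N g)) (c1 c : ℝ) : DFin g (dd g c1 c) := by
  intro q hq i F hi1 hi2 hU p hp hpz
  by_contra hne
  obtain ⟨hpp, hpq⟩ := Pm_prime g hp
  have hq1 := mem_Icc.1 (hV hq)
  have hpN : p ≤ N g := (Nat.le_of_dvd hq1.1 hpq).trans hq1.2
  have e : N g - (N g - p) = p := by omega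
  have hj : N g - p < N g := by
    have := hpp.pos
    omega
  obtain ⟨s, hs, ⟨-, t, ht, hst⟩, h2, h3, -⟩ := dd_ne (by rw [e]; exact hne) hj
  have h4 : nxw g q s ≤ t := nx_le_of_mem ht hst
  obtain ⟨j, hj1, hj2, hNw, rfl⟩ := mem_NwP.1 ht
  have h5 : z g j < p := by omega
  have h6 : i < j := by
    by_contra hlt
    have := z_anti g (not_lt.1 hlt)
    omega
  obtain ⟨-, F', b, h7, h8⟩ := hNw
  obtain ⟨b1, hb1⟩ := hU j h6.le (by omega)
  obtain ⟨b2, hb2⟩ := hU (j - 1) (by omega) (by omega)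
  have h7' : st g j q = some (F', b) := h7
  rw [hb1, Option.some.injEq, Prod.mk.injEq] at h7'
  apply h8 b2
  rw [← h7'.1]
  exact hb2

/-- the numerical condition on `K0c` -/
theorem ev_K0c : Ev (fun K Js => ∀ g : Cfg, g.K = K → g.Js = Js → K0c g ≤ zs g) := by
  refine Ev.of_eventually fun K => ?_
  have h1 : (fun t : ℝ => (Real.log t) ^ (1 / K.P.c4)) =o[Filter.atTop] fun t => t ^ (1 : ℝ) :=
    isLittleO_log_rpow_rpow_atTop _ one_pos
  have h2 := h1.bound (c := 1) one_pos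
  rw [Filter.eventually_atTop] at h2
  obtain ⟨T, h2⟩ := h2
  refine ⟨max 1 (max T 1 + 1), fun Js hJs g hK hJ => ?_⟩
  have h3 : 1 ≤ Js := (le_max_left _ _).trans hJs
  have h4 : max T 1 + 1 ≤ Js := (le_max_right _ _).trans hJs
  have h5 : Js ≤ (max 1 g.Js) ^ g.K.C2 := by
    rw [hJ, max_eq_right h3]
    calc Js = Js ^ (1 : ℝ) := (Real.rpow_one _).symm
      _ ≤ _ := Real.rpow_le_rpow_of_exponent_le h3 g.K.C2_ge
  have h6 := Nat.lt_floor_add_one ((max 1 g.Js) ^ g.K.C2)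
  have h7 : (zs g : ℝ) = (⌊(max 1 g.Js) ^ g.K.C2⌋₊ : ℝ) := rfl
  have h8 : max T 1 ≤ (zs g : ℝ) := by linarith
  have h9 := h2 (zs g) ((le_max_left _ _).trans h8)
  have h10 : (1 : ℝ) ≤ zs g := (le_max_right _ _).trans h8
  rw [one_mul, Real.rpow_one, Real.norm_of_nonneg (by linarith : (0 : ℝ) ≤ zs g),
    Real.norm_of_nonneg (Real.rpow_nonneg (Real.log_nonneg h10) _)] at h9
  unfold K0c
  rw [hK]
  exact h9

/-- **Class O for any dilution which vanishes where the fraction is final.** -/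
theorem pOld_of (γ : ℝ) {δ : Cfg → ℕ → ℕ → ℝ} (hδ : ∀ g, Om (δ g))
    (hδ' : ∀ g : Cfg, JsOK g.K g.Js → g.Js ≤ g.X → g.V ⊆ Icc 1 (N g) → DFin g (δ g)) :
    POld γ δ := by
  unfold POld EvE
  refine (ev_numOK.and ev_K0c).mono ?_
  rintro K Js ⟨hNum, hK0⟩
  refine ⟨2 * (Real.exp 353 * 131072 * (Zc (⌊(max 1 Js) ^ K.C2⌋₊) * Real.exp (1 / 2)) ^ 2),
    max 16 Js, ?_⟩
  intro g hK hγ hJs hX hA
  rw [max_le_iff] at hX
  obtain ⟨hX16, hXJ⟩ := hX
  have hXJ' : g.Js ≤ g.X := by rw [hJs]; exact hXJ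
  have hN : NumOK g.K g.Js := by rw [hK, hJs]; exact hNum
  have hVs : g.V ⊆ Icc 1 (N g) := (hA.vt hX16).sub
  have hz : zs g = ⌊(max 1 Js) ^ K.C2⌋₊ := by
    unfold zs
    rw [hK, hJs]
  rw [← hz]
  exact EnS_TAo hN.e1 hN.js hXJ' hVs (hK0 g hK hJs) (hδ g) (hδ' g hN.js hXJ' hVs) Subset.rfl

/-- **Class O for the dilution of H530.** -/
theorem pOld (γ : ℝ) {c1 c : ℝ} (h1 : 0 ≤ c1) (hc : 0 ≤ c) (hc1 : c ≤ 1) :
    POld γ (fun g => dd g c1 c) :=
  pOld_of γ (fun _ => Om_dd h1 hc hc1) fun _ _ _ hV => DFin_dd hV c1 c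

end Vale.P028.SK
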